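import Vale.Agent.P241Z.L0

/-!
# P241G, rows of block I (geometry of finite `G`-cell spaces): definitions and statements
-/

noncomputable section

namespace Vale.Agent.P241GR

open P251.St P241.St P241Z

variable (G : Type) [Group G] [Finite G]

omit [Group G] in
theorem isClosed_red : IsClosed {x : G → ℝ | ∑ᶠ k, x k = 0} := by
  have := Fintype.ofFinite G
  simp only [finsum_eq_sum_of_fintype]
  exact isClosed_eq (by fun_prop) continuous_const

/-- The reduced regular representation. -/
def redS : GSpace G :=
  sub (reg G) {x : G → ℝ | ∑ᶠ k, x k = 0} (isClosed_red G).isLocallyClosed fun g x hx =>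
    (finsum_comp_equiv (Equiv.mulLeft g⁻¹) (f := x)).trans hx

/-- Row I1. -/
def I1 : Prop := GFC G (redS G)

variable {G}

/-- `A → B → C` is a cofibre sequence of finite `G`-cell spaces. -/
def Seq (A B C : GSpace G) : Prop :=
  GFC G A ∧ GFC G B ∧ GFC G C ∧ ∃ (i : Map A.und B.und) (q : Map B.und C.und),
    IsGMap (X := A) (Y := B) i.toFun ∧ IsGMap (X := B) (Y := C) q.toFun ∧
      GCofib (A := A) (B := B) i ∧ IsQuot i q

/-- A class of finite `G`-cell spaces with the two out of three property. -/
structure Thick (P : GSpace G → Prop) : Prop where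
  empty : P (GSpace.triv G Em)
  hequiv : ∀ {X Y}, GFC G X → GHEquiv X Y → P X → P Y
  fib : ∀ {A B C}, Seq A B C → P B → P C → P A
  ext : ∀ {A B C}, Seq A B C → P A → P C → P B
  quot : ∀ {A B C}, Seq A B C → P A → P B → P C

variable (G) in
/-- Row I2: isotropy separation for `G/H × ρ`. -/
def I2 : Prop := ∀ (P : GSpace G → Prop), Thick P → ∀ H : Subgroup G,
  (∀ V : Subgroup G, Nat.card V < Nat.card H → ∀ n, P (cell G V n)) →
    P ((cell G H 0).prod (reg G)) → ∃ n, P (cell G H n)

end Vale.Agent.P241GR
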