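import Vale.Agent.P251.H.SmallHom
import Vale.Agent.P251.S.Tel
import Vale.Agent.P093.N.PLoc

/-!
# P241G, rows of block B (pure triangulated category theory): definitions and statements
-/

open CategoryTheory Limits Pretriangulated

universe v u

namespace Vale.Agent.P241GR

open P251.S (IsCpt)

section

variable {C : Type u} [Category.{v} C] [Preadditive C]

/-- `p`-local objects. -/
def PL (p : ℕ) : ObjectProperty C := fun A => ∀ m : ℕ, m.Coprime p → IsIso (m • 𝟙 A)

/-- compact objects of the category of `p`-local objects -/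
def Cp {p : ℕ} (A : (PL (C := C) p).FullSubcategory) : Prop :=
  ∀ (I : Type) (B : I → (PL (C := C) p).FullSubcategory) (c : Cofan B), IsColimit c →
    ∀ f : A ⟶ c.pt, ∃ (s : Finset I) (g : ∀ i, A ⟶ B i), f = ∑ i ∈ s, g i ≫ c.inj i

/-- `l` induces an isomorphism on the `p`-localization of `Hom (W, -)`. -/
def SIso (p : ℕ) (W : C) {X Y : C} (l : X ⟶ Y) : Prop :=
  (∀ y : W ⟶ Y, ∃ (m : ℕ) (x : W ⟶ X), m.Coprime p ∧ x ≫ l = m • y) ∧
    ∀ x : W ⟶ X, x ≫ l = 0 → ∃ m : ℕ, m.Coprime p ∧ m • x = 0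

/-- Row B1. -/
def B1 (C : Type u) [Category.{v} C] [Preadditive C] : Prop :=
  HasCoproducts.{0} C → ∀ p : ℕ, HasCoproducts.{0} (PL (C := C) p).FullSubcategory

end

variable {C : Type u} [Category.{v} C] [Preadditive C] [HasZeroObject C] [HasShift C ℤ]
  [∀ n : ℤ, (shiftFunctor C n).Additive] [Pretriangulated C] [IsTriangulated C]
  [HasCoproducts.{0} C]

/-- `S` is a family of compact generators and `F` is a triangulated class of compact objects which
contains them. -/
structure Gen {ι : Type} (S : ι → C) (F : C → Prop) : Prop where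
  sh : P251.H.ShiftClosed S
  small : ∀ i X, Small.{0} (S i ⟶ X)
  gen : ∀ Z : C, (∀ i (f : S i ⟶ Z), f = 0) → IsZero Z
  mem : ∀ i, F (S i)
  zero : ∃ Z, F Z ∧ IsZero Z
  cpt : ∀ {B}, F B → IsCpt B
  iso : ∀ {B B'}, (B ≅ B') → F B → F B'
  shift : ∀ {B} (n : ℤ), F B → F (B⟦n⟧)
  cone : ∀ {X Y Z : C} {f : X ⟶ Y} {g : Y ⟶ Z} {h : Z ⟶ X⟦(1 : ℤ)⟧},
    Triangle.mk f g h ∈ distTriang C → F X → F Y → F Z

variable (C) in
/-- Row B2: the `p`-localization of a compact object exists and is compact. -/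
def B2 : Prop := ∀ p : ℕ, p.Prime → ∀ B : C, IsCpt B →
  ∃ (A : (PL (C := C) p).FullSubcategory) (l : B ⟶ A.obj), Cp A ∧ ∀ W, IsCpt W → SIso p W l

variable (C) in
/-- Row B3 (Neeman): a compact `p`-local object is a retract of the localization of an object of
`F`. -/
def B3 : Prop := ∀ p : ℕ, p.Prime → ∀ (ι : Type) (S : ι → C) (F : C → Prop), Gen S F →
  ∀ A : (PL (C := C) p).FullSubcategory, Cp A →
    ∃ (B B' : C) (l : B ⟶ B') (i : A.obj ⟶ B') (r : B' ⟶ A.obj), F B ∧ i ≫ r = 𝟙 _ ∧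
      ∀ W, IsCpt W → SIso p W l

end Vale.Agent.P241GR
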