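import Vale.Agent.P241CB.Fg
import Vale.Agent.P241GR.B
import Vale.Agent.P241Z.Deg

/-!
# P241G, rows of block G (the nonequivariant stable homotopy category): definitions, statements
-/

open CategoryTheory MonoidalCategory Limits OnePoint

noncomputable section

namespace Vale.Agent.P241GR

open P251.St P251CX
open P241Z (IsDeg)
open P241Y (PLocal)
open P241L (fg)

/-- `D` is a self map of `S^j` which is the map of degree `m` in one coordinate. -/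
def Dg (m : ℕ) {j : ℕ} (D : Map (Rn j) (Rn j)) : Prop :=
  ∃ (i : ℕ) (d : Map Rr Rr) (e : (Fin i → ℝ) × ℝ ≃ₜ (Fin j → ℝ)), IsDeg m d ∧
    ∀ y t, D.toFun (.some (e (y, t))) = (d.toFun (.some t)).map fun s => e (y, s)

/-- the class of a constant map -/
def IsNull {Y : OSp} (x : Quot (PiRel Y)) : Prop :=
  ∃ (j n : ℕ) (z : Pm (Rn j) Y n), (∀ y, z.fn y = Y.bp n) ∧ Quot.mk _ (.of z) = x

/-- `x' = m x` -/
def IsMul {Y : OSp} (m : ℕ) (x x' : Quot (PiRel Y)) : Prop :=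
  ∃ (j n : ℕ) (v v' : Pm (Rn j) Y n) (D : Map (Rn j) (Rn j)), Dg m D ∧
    (∀ y, v'.fn y = v.fn (D.toFun y)) ∧ Quot.mk _ (.of v) = x ∧ Quot.mk _ (.of v') = x'

/-- `x' = g_* x` -/
def IsIm {Y Y' : OSp} (g : Mor Y Y') (x : Quot (PiRel Y)) (x' : Quot (PiRel Y')) : Prop :=
  ∃ (j n : ℕ) (u : Pm (Rn j) Y n) (u' : Pm (Rn j) Y' n), (∀ y, u'.fn y = g.app n (u.fn y)) ∧
    Quot.mk _ (.of u) = x ∧ Quot.mk _ (.of u') = x'

/-- `g` is onto on `π_*` up to multiples prime to `p` -/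
def OntoS (p : ℕ) {Y Y' : OSp} (g : Mor Y Y') : Prop :=
  ∀ y : Quot (PiRel Y'), ∃ (m : ℕ) (x : Quot (PiRel Y)) (y' : Quot (PiRel Y')),
    m.Coprime p ∧ IsMul m y y' ∧ IsIm g x y'

/-- `g` is injective on `π_*` up to multiples prime to `p` -/
def InjS (p : ℕ) {Y Y' : OSp} (g : Mor Y Y') : Prop :=
  ∀ (x : Quot (PiRel Y)) (y : Quot (PiRel Y')), IsIm g x y → IsNull y →
    ∃ (m : ℕ) (x' : Quot (PiRel Y)), m.Coprime p ∧ IsMul m x x' ∧ IsNull x'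

/-- `Y'_n = Y_{r + n}` -/
def IsShift (r : ℕ) (Y Y' : OSp) : Prop := ∃ e : ∀ n, Y'.sp n ≃ₜ Y.sp (r + n),
  (∀ n, e n (Y'.bp n) = Y.bp _) ∧ ∀ m n (f : Emb m n) (h : Emb (r + m) (r + n)),
    (∀ s t, ap h (Fin.append s t) = Fin.append s (ap f t)) →
      ∀ y, e n (Y'.ac f y) = Y.ac h (e m y)

variable {T : SHCat} {S : Susp T} (I : P241L.IsSH (fg T S))

/-- the localization functor -/
def LI : OSp ⥤ T.C := (⟨I.L, I.l, I.l_id, I.l_comp⟩ : OSp ⥤ (fg T S).Sp)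

/-- the comparison of suspension spectra -/
def ioI {A : Space} {X : OSp} (u : Pm A X 0) : S.obj A ⟶ (LI I).obj X := I.io u

/-- Row G1a: from elements to morphisms out of spheres. -/
def G1a : Prop := ∀ (p : ℕ) (Y Y' : OSp) (g : Y ⟶ Y'), OntoS p g → InjS p g →
  ∀ k : ℤ, SIso p ((𝟙_ T.C)⟦k⟧) ((LI I).map g)

variable (T) in
/-- Row G1b: a `p`-local `π_*`-isomorphism is inverted by `K ⊗ -` for `p`-local `K`. -/
def G1b : Prop := ∀ p : ℕ, p.Prime → ∀ K : T.C, PLocal p K → ∀ (A B : T.C) (g : A ⟶ B),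
  (∀ k : ℤ, SIso p ((𝟙_ T.C)⟦k⟧) g) → IsIso (K ◁ g)

/-- Row G2: the shift does not change acyclicity. -/
def G2 : Prop := ∀ (r : ℕ) (Y Y' : OSp), IsShift r Y Y' → ∀ K : T.C,
  IsZero (K ⊗ (LI I).obj Y) ↔ IsZero (K ⊗ (LI I).obj Y')

/-- Row G3: free spectra on finite cell spaces are suspension spectra. -/
def G3 : Prop := ∀ (A : Space) (X : OSp) (u : Pm A X 0), FC A → IsFree u → IsIso (ioI I u)

end Vale.Agent.P241GR
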