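import Vale.Agent.P241GA.Tf
import Vale.Agent.P241GX.St
import Vale.Agent.P241GR.G

/-!
# P241G, the dictionary between a model `M` and orthogonal `G`-spectra; rows of blocks D and P
-/

open CategoryTheory MonoidalCategory Limits OnePoint Matrix

noncomputable section

namespace Vale.Agent.P241GR

open P251.G P251.G.LC P251.H P251.St P251CX P241.St P241GX P241GA P241GA.GIn
open P251.H.GS.StabInput
open P241Z (IsDeg reg fixIncl)

universe u

variable {G : Type} [Group G] [Finite G]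

/-- `u : K⁺ → X (a ρ)` is `G`-equivariant. -/
def EqvG (K : GSpace G) (X : Action OSp G) (a : ℕ) (u : Pm K.und X.V (Nat.card G * a)) : Prop :=
  ∀ g h, IsAct g h → ∀ x, u.fn (K.smul g x) = X.V.ac h ((X.ρ g).app _ (u.fn x))

/-- `X' (V) = X (ρ ⊕ V)`. -/
def IsShG (X X' : Action OSp G) : Prop :=
  ∃ e : ∀ n, X'.V.sp n ≃ₜ X.V.sp (Nat.card G * 1 + n),
    (∀ n, e n (X'.V.bp n) = X.V.bp _) ∧
    (∀ m n (f : Emb m n) (h : Emb (Nat.card G * 1 + m) (Nat.card G * 1 + n)),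
      (∀ s t, ap h (Fin.append s t) = Fin.append s (ap f t)) →
        ∀ y, e n (X'.V.ac f y) = X.V.ac h (e m y)) ∧
    ∀ n (g : G) (h : Emb (Nat.card G * 1 + n) (Nat.card G * 1 + n)),
      (∀ s t, ap h (Fin.append (cd s) t) = Fin.append (cd (tw g s)) t) →
        ∀ y, e n ((X'.ρ g).app n y) = X.V.ac h ((X.ρ g).app _ (e n y))

/-- the body of `IsPhi` -/
def PhiOk (H : Subgroup G) (X : Action OSp G) (Y : OSp)
    (e : ∀ n, Y.sp n → X.V.sp (Nat.card H * n)) : Prop :=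
  ∀ n, Topology.IsEmbedding (e n) ∧ e n (Y.bp n) = X.V.bp _ ∧
    (∀ x, x ∈ Set.range (e n) ↔ ∀ (g : H) h, IsAct g h → X.V.ac h ((X.ρ g).app _ x) = x) ∧
    ∀ m (f : Emb m n) h, (∀ s, ap h (cd s) = cd fun i k => ap f (fun l => s l k) i) →
      ∀ y, e n (Y.ac f y) = X.V.ac h (e m y)

theorem isPhi_iff (H : Subgroup G) (X : Action OSp G) (Y : OSp) :
    IsPhi H X Y ↔ ∃ e, PhiOk H X Y e := Iff.rfl

/-- A geometric fixed point functor. -/
structure PhiF (H : Subgroup G) where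
  /-- the functor -/
  Φ : Action OSp G ⥤ OSp
  /-- the inclusions of the fixed points -/
  e : ∀ X n, (Φ.obj X).sp n → X.V.sp (Nat.card H * n)
  ok : ∀ X, PhiOk H X (Φ.obj X) (e X)
  nat : ∀ {X Y} (f : X ⟶ Y) n y, e Y n ((Φ.map f).app n y) = f.hom.app _ (e X n y)

variable (G) in
/-- Row P1: existence and uniqueness of geometric fixed points. -/
def P1 : Prop := ∀ H : Subgroup G, Nonempty (PhiF H) ∧
  ∀ X Y Y', IsPhi H X Y → IsPhi H X Y' → Nonempty (Y ≅ Y')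

variable (G) in
/-- Row P3: geometric fixed points of suspension spectra. -/
def P3 : Prop := ∀ (H : Subgroup G) (P : PhiF H) (K : GSpace G) (X : Action OSp G)
  (u : Pm K.und X.V 0), EqvG K X 0 u → IsFree u →
    ∃ v : Pm (K.fix H) (P.Φ.obj X) 0, IsFree v ∧ ∀ x, P.e X 0 (v.fn x) = u.fn (fixIncl K H x)

variable (G) in
/-- Row P4: geometric fixed points of the shift. -/
def P4 : Prop := ∀ (H : Subgroup G) (X X' : Action OSp G) (Y Y' : OSp), IsShG X X' →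
  IsPhi H X Y → IsPhi H X' Y' → IsShift H.index Y Y'

variable {M : Type u} [Category.{0} M] [MonoidalCategory M] [SymmetricCategory M]
  [MonoidalClosed M] [HasZeroMorphisms M] [HasColimitsOfSize.{0, 0} M] [GIn G M]

/-- Morphisms `F^a K ⟶ X` are the equivariant maps `K⁺ → X (a ρ)`. -/
structure Dict (o : M ⥤ Action OSp G) where
  /-- the map given by a morphism -/
  el : ∀ {a : ℕ} {K : GSpace G} {X : M},
    ((TF M a).obj (gl K) ⟶ X) → Pm K.und (o.obj X).V (Nat.card G * a)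
  eqv : ∀ {a K X} (f : (TF M a).obj (gl K) ⟶ X), EqvG K (o.obj X) a (el f)
  inj : ∀ {a K X} (f g : (TF M a).obj (gl K) ⟶ X), (∀ x, (el f).fn x = (el g).fn x) → f = g
  surj : ∀ {a K X} u, EqvG K (o.obj X) a u → ∃ f : (TF M a).obj (gl K) ⟶ X, el f = u
  post : ∀ {a K X Y} (f : (TF M a).obj (gl K) ⟶ X) (φ : X ⟶ Y) x,
    (el (f ≫ φ)).fn x = (o.map φ).hom.app _ ((el f).fn x)
  pre : ∀ {a K K' X} (p : gl K' ⟶ gl K) (f : (TF M a).obj (gl K) ⟶ X) x,
    (el ((TF M a).map p ≫ f)).fn x = (el f).fn (app p.hom x)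
  zero : ∀ {a K X} x, (el (0 : (TF M a).obj (gl K) ⟶ X)).fn x = (o.obj X).V.bp _
  stab : ∀ {a K X} (f : (TF M a).obj (gl K) ⟶ X) (v : G → ℝ)
    (h : Emb (Nat.card G * a) (Nat.card G * (a + 1))), (∀ s, ap h (cd s) = cd (vecCons v s)) →
      ∀ x : K.carrier, (el (stb M a K ≫ f)).fn (.some (v, x)) =
        (o.obj X).V.ac h ((el f).fn (.some x))
  free : ∀ K : GSpace G,
    IsFree (X := (o.obj ((TF M 0).obj (gl K))).V) (el (𝟙 ((TF M 0).obj (gl K))))
  sh : ∀ X : M, IsShG (o.obj X) (o.obj ((ihom (F : M)).obj X))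

variable (M) in
/-- Row D1: the `π_*^H`-isomorphisms are the stable equivalences of the model. -/
def D1 : Prop := ∀ (o : M ⥤ Action OSp G) (_ : Dict o) (X Y : M) (f : X ⟶ Y),
  eqW G (o.map f) ↔ piW (GG M) f

/-- `f` is bijective, up to maps of degree prime to `p`, on stable classes out of
`F^a (K × ℝ)`. -/
def SS (p : ℕ) {X Y : M} (f : X ⟶ Y) (a : ℕ) (K : GSpace G) : Prop :=
  (∀ y : (TF M a).obj (gl (P241.Geo.xt K Rr)) ⟶ Y, ∃ (m : ℕ) (d : Map Rr Rr) (k : ℕ)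
    (x : (TF M (a + k)).obj (gl (sp (P241.Geo.xt K Rr) k)) ⟶ X), m.Coprime p ∧ IsDeg m d ∧
      MHtpy (x ≫ f) (stk M a _ k ≫ (TF M a).map (gwl K (toHom d)) ≫ y)) ∧
  ∀ x : (TF M a).obj (gl (P241.Geo.xt K Rr)) ⟶ X, MHtpy (x ≫ f) 0 →
    ∃ (m : ℕ) (d : Map Rr Rr) (k : ℕ), m.Coprime p ∧ IsDeg m d ∧
      MHtpy (stk M a _ k ≫ (TF M a).map (gwl K (toHom d)) ≫ x) 0

variable (M) in
/-- Row P2: restriction to the fixed points. -/
def P2 : Prop := ∀ (o : M ⥤ Action OSp G) (_ : Dict o) (H : Subgroup G) (P : PhiF H) (p : ℕ)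
  (X Y : M) (f : X ⟶ Y), (∀ a j, SS p f a (cell G H j)) →
    OntoS p (P.Φ.map (o.map f)) ∧ InjS p (P.Φ.map (o.map f))

end Vale.Agent.P241GR
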