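import Vale.Agent.P241GR.A
import Vale.Agent.P241GR.D

/-!
# P241G, rows of block C (the finite objects of the model): statements
-/

open CategoryTheory MonoidalCategory Limits Pretriangulated

noncomputable section

namespace Vale.Agent.P241GR

open P251.H P251.St P241.St P241GA P241GA.GIn
open P251.H.GS.StabInput
open P241.Geo (xt)

universe v' u u'

variable {G : Type} [Group G] [Finite G] (M : Type u) [Category.{0} M] [MonoidalCategory M]
  [SymmetricCategory M] [MonoidalClosed M] [HasZeroMorphisms M] [HasColimitsOfSize.{0, 0} M]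
  [GIn G M]

/-- Row C1 (from rows I1, I2): the finite objects see the stable equivalences; `F ⊗ -`,
`S^ρ ⊗ -` and the right adjoint of `F ⊗ -` preserve them. -/
structure C1 : Prop where
  src : ∀ (n : ℕ) (K : GSpace G), GFC G K → Src (GG M) ((TF M n).obj (gl K))
  tenF : ∀ {X Y : M} (f : X ⟶ Y), piW (GG M) f → piW (GG M) ((F : M) ◁ f)
  tenV : ∀ {X Y : M} (f : X ⟶ Y), piW (GG M) f → piW (GG M) ((JG M).obj (Vg G) ◁ f)
  hom : ∀ {X Y : M} (f : X ⟶ Y), piW (GG M) f → piW (GG M) ((ihom (F : M)).map f)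

variable {M} {C : Type u'} [Category.{v'} C] (Q : M ⥤ C)

/-- the finite objects -/
def FinO (B : C) : Prop :=
  ∃ (n : ℕ) (K : GSpace G), GFC G K ∧ Nonempty (B ≅ Q.obj ((TF M n).obj (gl K)))

/-- Row C2 (from C1, for `Q` a localization at `piW (GG M)`): the shift is an autoequivalence
of the localization, inverse to `F ⊗ -`. -/
def C2 : Prop := ∃ E : C ⥤ C, E.IsEquivalence ∧ Nonempty (ihom (F : M) ⋙ Q ≅ Q ⋙ E) ∧
  Nonempty (tensorLeft (F : M) ⋙ Q ⋙ E ≅ Q)

/-- Row C3 (from C1, C2, A1): morphisms of finite objects are represented by `G`-maps. -/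
def C3 : Prop := ∀ B B' : C, FinO Q B → FinO Q B' → ∀ u : B ⟶ B',
  ∃ (n : ℕ) (K K' : GSpace G) (f : gl (xt K Rr) ⟶ gl (xt K' Rr))
    (θ : B ≅ Q.obj ((TF M n).obj (gl (xt K Rr))))
    (θ' : B' ≅ Q.obj ((TF M n).obj (gl (xt K' Rr)))), GFC G K ∧ GFC G K' ∧
      u ≫ θ'.hom = θ.hom ≫ Q.map ((TF M n).map f)

/-- Row C3' (from C1, C2, A1): endomorphisms of finite objects are represented by `G`-maps. -/
def C3' : Prop := ∀ B : C, FinO Q B → ∀ u : B ⟶ B,
  ∃ (n : ℕ) (K : GSpace G) (f : gl (xt K Rr) ⟶ gl (xt K Rr))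
    (θ : B ≅ Q.obj ((TF M n).obj (gl (xt K Rr)))), GFC G K ∧
      u ≫ θ.hom = θ.hom ≫ Q.map ((TF M n).map f)

variable [Preadditive C]

/-- Row C5 (from C1, A1, A2): the elementwise form of `SIso`. -/
def C5 : Prop := ∀ (p : ℕ) (X Y : M) (f : X ⟶ Y) (a : ℕ) (K : GSpace G), GFC G K →
  SIso p (Q.obj ((TF M a).obj (gl (xt K Rr)))) (Q.map f) → SS p f a K

variable [HasZeroObject C] [HasShift C ℤ] [∀ n : ℤ, (shiftFunctor C n).Additive]
  [Pretriangulated C] [IsTriangulated C] [HasCoproducts.{0} C]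

/-- Row C4 (from I1, C1, C2, C3, A1, A2, A3): compact generation. -/
def C4 : Prop := Gen (fun i : Subgroup G × List Bool => Q.obj (gen M i)) (FinO Q)

end Vale.Agent.P241GR
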