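import Vale.Agent.P241GR.C

/-!
# P241G, row M (the model) and the target statement
-/

open CategoryTheory MonoidalCategory Limits

namespace Vale.Agent.P241GR

open P251CX P241GX P241GA P241L
open P241Y (ell)

/-- Row M: there is a model of orthogonal `G`-spectra. -/
def Model (G : Type) [Group G] [Finite G] : Prop :=
  ∃ (M : Type 1) (_ : Category.{0} M) (_ : MonoidalCategory M) (_ : SymmetricCategory M)
    (_ : MonoidalClosed M) (_ : HasZeroMorphisms M) (_ : HasColimitsOfSize.{0, 0} M) (_ : GIn G M)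
    (o : M ⥤ Action OSp G), o.Full ∧ o.Faithful ∧ Function.Surjective o.obj ∧ Nonempty (Dict o)

/-- The target statement. -/
def Target : Prop :=
  (∀ (G : Type) [Group G] [Finite G], Nonempty (Preadditive (Ho G)) ∧
    (∀ [Preadditive (Ho G)] p, HasCoproducts.{0} (Pl G p)) ∧
    ∀ (H : Subgroup G) X, ∃ Y, IsPhi H X Y) ∧
  (∃ T : SM, Nonempty (P241L.IsSH T)) ∧
  ∀ (T : SM) (I : P241L.IsSH T) (p : ℕ), p.Prime → (∃ K : ℕ → Rg T, ∀ i, Morava p i (K i)) ∧
    ∀ K : ℕ → Rg T, (∀ i, Morava p i (K i)) →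
      ∀ (G : Type) [Group G] [Finite G] [Preadditive (Ho G)], IsPGroup p G →
        ∀ (H : Subgroup G) n, loss H p I K n = ell H ∧ ∀ r, P241GX.Force H p I K n r ↔ ell H ≤ r

end Vale.Agent.P241GR
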