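import Vale.Agent.P241GS.Gen
import Vale.Agent.P241GS.PuppeInst
import Vale.Agent.P241GR.B
import Vale.Agent.P241Z.Deg

/-!
# P241G, rows of block A (the localization of a weak stabilisation input): statements
-/

open CategoryTheory MonoidalCategory Limits Pretriangulated

universe v' u u'

namespace Vale.Agent.P241GR

open P251.H P251.H.GS.StabInput P251.St
open P251.S (IsCpt)
open P241Z (IsDeg)

variable {M : Type u} [Category.{0} M] [MonoidalCategory M] [SymmetricCategory M]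
  [MonoidalClosed M] [HasZeroMorphisms M] [HasColimitsOfSize.{0, 0} M] [GS.StabInput M]
  (GG : ObjectProperty M) {C : Type u'} [Category.{v'} C] (Q : M ⥤ C)

/-- Row A1: morphisms in the localization. -/
structure A1 : Prop where
  pre : Nonempty (Preadditive C)
  cop : HasCoproducts.{0} C
  htpy : ∀ {X Y : M} {f g : X ⟶ Y}, MHtpy f g → Q.map f = Q.map g
  rep : ∀ {A : M}, Src GG A → ∀ (X : M) (φ : Q.obj A ⟶ Q.obj X),
    ∃ (k : ℕ) (x : pwM k A ⟶ X), Q.map (tkM k A) ≫ φ = Q.map x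
  inj : ∀ {A : M}, Src GG A → ∀ (X : M) (x y : A ⟶ X), Q.map x = Q.map y →
    ∃ k : ℕ, MHtpy (tkM k A ≫ x) (tkM k A ≫ y)
  frac : ∀ (X Y : M) (φ : Q.obj X ⟶ Q.obj Y),
    ∃ (Z : M) (f : X ⟶ Z) (s : Y ⟶ Z), piW GG s ∧ φ ≫ Q.map s = Q.map f
  small : ∀ {A : M}, Src GG A → ∀ Z : C, Small.{0} (Q.obj A ⟶ Z)

variable [Preadditive C]

/-- Row A3: the triangulation. -/
structure A3 [HasZeroObject C] [HasShift C ℤ] [∀ n : ℤ, (shiftFunctor C n).Additive]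
    [Pretriangulated C] : Prop where
  tri : IsTriangulated C
  susp : ∀ A : M, Nonempty (Q.obj (S M ⊗ A) ≅ (Q.obj A)⟦(1 : ℤ)⟧)
  desusp : ∀ A : M, Nonempty (Q.obj ((GS.StabInput.L : M) ⊗ A) ≅ (Q.obj A)⟦(-1 : ℤ)⟧)
  cone : ∀ {X Y Z : M} (f : X ⟶ Y) (k : X ⊗ CI M ⟶ Z) (i : Y ⟶ Z),
    IsPushout (coneBase X) f k i → ∃ h, Triangle.mk (Q.map f) (Q.map i) h ∈ distTriang C

/-- Row A2: the additive structure (any preadditive structure on `C`). -/
structure A2 [HasCoproducts.{0} C] : Prop where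
  zero : ∀ X Y : M, Q.map (0 : X ⟶ Y) = 0
  cpt : ∀ {A : M}, Src GG A → (∀ k, FinFactor (pwM k A)) → IsCpt (Q.obj A)
  gen : ∀ Z : C, (∀ A, GG A → ∀ f : Q.obj A ⟶ Z, f = 0) → IsZero Z
  deg : ∀ (A : M) (m : ℕ) (d : Map Rr Rr), IsDeg m d →
    Q.map (A ◁ (J M).map (toHom d)) = m • 𝟙 (Q.obj (A ⊗ S M))
  tri : ∃ (_ : HasZeroObject C) (_ : HasShift C ℤ) (_ : ∀ n : ℤ, (shiftFunctor C n).Additive)
    (_ : Pretriangulated C), A3 Q

end Vale.Agent.P241GR
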